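import Mathlib

/-!
# P281, project T-K, block K-F2 (helper485): algebra
-/

open Matrix

noncomputable section

namespace Vale.Agent.P281.H485.K

/-! ### `|det_ℂ|² = det_ℝ` -/

section
variable {d : ℕ}

/-- The real matrix of size `2d` of a complex matrix. -/
def real2 (A : Matrix (Fin d) (Fin d) ℂ) : Matrix (Fin d ⊕ Fin d) (Fin d ⊕ Fin d) ℝ :=
  fromBlocks (A.map Complex.re) (-(A.map Complex.im)) (A.map Complex.im) (A.map Complex.re)

theorem det_real2 (A : Matrix (Fin d) (Fin d) ℂ) : (real2 A).det = ‖A.det‖ ^ 2 := by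
  have hA : A = (A.map Complex.re).map Complex.ofReal +
      Complex.I • (A.map Complex.im).map Complex.ofReal := by
    ext i j
    simp only [Matrix.add_apply, Matrix.smul_apply, Matrix.map_apply, smul_eq_mul]
    rw [mul_comm]
    exact (Complex.re_add_im _).symm
  have hA' : A.map (starRingEnd ℂ) = (A.map Complex.re).map Complex.ofReal -
      Complex.I • (A.map Complex.im).map Complex.ofReal := by
    ext i j
    simp only [Matrix.sub_apply, Matrix.smul_apply, Matrix.map_apply, smul_eq_mul]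
    apply Complex.ext <;> simp
  set R : Matrix (Fin d) (Fin d) ℂ := (A.map Complex.re).map Complex.ofReal with hR
  set T : Matrix (Fin d) (Fin d) ℂ := (A.map Complex.im).map Complex.ofReal with hT
  have h1 : (real2 A).map Complex.ofReal = fromBlocks R (-T) T R := by
    ext (i | i) (j | j) <;> simp [real2, hR, hT]
  have h2 : fromBlocks 1 (Complex.I • (1 : Matrix (Fin d) (Fin d) ℂ)) 0 1 * fromBlocks R (-T) T R *
      fromBlocks 1 (-Complex.I • (1 : Matrix (Fin d) (Fin d) ℂ)) 0 1 =
      fromBlocks (R + Complex.I • T) 0 T (R - Complex.I • T) := by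
    rw [fromBlocks_multiply, fromBlocks_multiply]
    have hI : ∀ B : Matrix (Fin d) (Fin d) ℂ, Complex.I • Complex.I • B = -B := fun B => by
      rw [smul_smul, Complex.I_mul_I, neg_one_smul]
    congr 1
    · simp
    · simp only [Matrix.one_mul, Matrix.smul_mul, Matrix.mul_one, Matrix.mul_smul, neg_smul,
        Matrix.mul_neg, smul_add, hI]
      abel
    · simp
    · simp only [Matrix.one_mul, Matrix.mul_one, Matrix.mul_smul, neg_smul,
        Matrix.mul_neg, Matrix.zero_mul, zero_add]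
      abel
  have h3 := congrArg Matrix.det h2
  rw [det_mul, det_mul, det_fromBlocks_zero₂₁, det_fromBlocks_zero₂₁, det_fromBlocks_zero₁₂] at h3
  simp only [det_one, one_mul, mul_one] at h3
  have h4 : ((real2 A).det : ℂ) = ((‖A.det‖ ^ 2 : ℝ) : ℂ) := by
    have h5 : ((real2 A).det : ℂ) = ((real2 A).map Complex.ofReal).det := by
      have := Complex.ofRealHom.map_det (real2 A)
      exact this
    rw [h5, h1, h3, ← hA, ← hA']
    have h6 : (A.map (starRingEnd ℂ)).det = (starRingEnd ℂ) A.det :=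
      ((starRingEnd ℂ).map_det A).symm
    rw [h6, Complex.mul_conj, Complex.normSq_eq_norm_sq]
  exact_mod_cast h4

end

/-! ### Antisymmetrization -/

section
variable {d n : ℕ}

/-- The antisymmetric part. -/
def anti (R : Fin n → Fin n → ℝ) (x y : Fin n) : ℝ := (R x y - R y x) / 2

theorem anti_step (J : (Fin d ⊕ Fin d → Fin n) → ℝ)
    (hJ : ∀ (τ : Equiv.Perm (Fin d ⊕ Fin d)) K, J (K ∘ τ) = (Equiv.Perm.sign τ : ℤ) * J K)
    (f : Fin d → Fin n → Fin n → ℝ) (a : Fin d) :
    ∑ K : Fin d ⊕ Fin d → Fin n, J K * ∏ b, f b (K (Sum.inl b)) (K (Sum.inr b)) =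
      ∑ K : Fin d ⊕ Fin d → Fin n, J K *
        ∏ b, Function.update f a (anti (f a)) b (K (Sum.inl b)) (K (Sum.inr b)) := by
  classical
  have hprod : ∀ (K : Fin d ⊕ Fin d → Fin n) (φ : Fin n → Fin n → ℝ),
      ∏ b, Function.update f a φ b (K (Sum.inl b)) (K (Sum.inr b)) =
        φ (K (Sum.inl a)) (K (Sum.inr a)) *
          ∏ b ∈ Finset.univ.erase a, f b (K (Sum.inl b)) (K (Sum.inr b)) := by
    intro K φ
    rw [← Finset.mul_prod_erase _ _ (Finset.mem_univ a), Function.update_self]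
    congr 1
    refine Finset.prod_congr rfl fun b hb => ?_
    rw [Function.update_of_ne (Finset.ne_of_mem_erase hb)]
  have h0 : ∀ K : Fin d ⊕ Fin d → Fin n, ∏ b, f b (K (Sum.inl b)) (K (Sum.inr b)) =
      f a (K (Sum.inl a)) (K (Sum.inr a)) *
          ∏ b ∈ Finset.univ.erase a, f b (K (Sum.inl b)) (K (Sum.inr b)) := by
    intro K
    rw [← Finset.mul_prod_erase _ _ (Finset.mem_univ a)]
  let τ : Equiv.Perm (Fin d ⊕ Fin d) := Equiv.swap (Sum.inl a) (Sum.inr a)
  have hτ : τ * τ = 1 := Equiv.swap_mul_self _ _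
  have h1 : ∑ K : Fin d ⊕ Fin d → Fin n, J K * ∏ b, f b (K (Sum.inl b)) (K (Sum.inr b)) =
      ∑ K : Fin d ⊕ Fin d → Fin n, J K * (-(f a (K (Sum.inr a)) (K (Sum.inl a)) *
          ∏ b ∈ Finset.univ.erase a, f b (K (Sum.inl b)) (K (Sum.inr b)))) := by
    rw [← Equiv.sum_comp (Equiv.arrowCongr τ (Equiv.refl (Fin n)))]
    refine Finset.sum_congr rfl fun K _ => ?_
    have h2 : Equiv.arrowCongr τ (Equiv.refl (Fin n)) K = K ∘ τ := by
      ext x
      simp [Equiv.arrowCongr, τ]
    rw [h2, hJ, Equiv.Perm.sign_swap (by simp), h0]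
    have h3 : ∏ b ∈ Finset.univ.erase a, f b ((K ∘ τ) (Sum.inl b)) ((K ∘ τ) (Sum.inr b)) =
        ∏ b ∈ Finset.univ.erase a, f b (K (Sum.inl b)) (K (Sum.inr b)) := by
      refine Finset.prod_congr rfl fun b hb => ?_
      have hb' : b ≠ a := Finset.ne_of_mem_erase hb
      simp only [Function.comp, τ]
      rw [Equiv.swap_apply_of_ne_of_ne (by simpa using hb') (by simp),
        Equiv.swap_apply_of_ne_of_ne (by simp) (by simpa using hb')]
    rw [h3]
    simp only [Function.comp, τ, Equiv.swap_apply_left, Equiv.swap_apply_right]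
    push_cast
    ring
  have h4 : ∑ K : Fin d ⊕ Fin d → Fin n, J K * ∏ b, f b (K (Sum.inl b)) (K (Sum.inr b)) =
      (∑ K : Fin d ⊕ Fin d → Fin n, J K * ∏ b, f b (K (Sum.inl b)) (K (Sum.inr b)) +
        ∑ K : Fin d ⊕ Fin d → Fin n, J K * (-(f a (K (Sum.inr a)) (K (Sum.inl a)) *
          ∏ b ∈ Finset.univ.erase a, f b (K (Sum.inl b)) (K (Sum.inr b))))) / 2 := by
    rw [← h1]; ring
  rw [h4, ← Finset.sum_add_distrib, Finset.sum_div]
  refine Finset.sum_congr rfl fun K _ => ?_
  rw [hprod, h0, anti]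
  ring

theorem anti_all (J : (Fin d ⊕ Fin d → Fin n) → ℝ)
    (hJ : ∀ (τ : Equiv.Perm (Fin d ⊕ Fin d)) K, J (K ∘ τ) = (Equiv.Perm.sign τ : ℤ) * J K)
    (R : Fin n → Fin n → ℝ) :
    ∑ K : Fin d ⊕ Fin d → Fin n, J K * ∏ b, R (K (Sum.inl b)) (K (Sum.inr b)) =
      ∑ K : Fin d ⊕ Fin d → Fin n, J K * ∏ b, anti R (K (Sum.inl b)) (K (Sum.inr b)) := by
  classical
  have key : ∀ s : Finset (Fin d),
      ∑ K : Fin d ⊕ Fin d → Fin n, J K * ∏ b, R (K (Sum.inl b)) (K (Sum.inr b)) =
      ∑ K : Fin d ⊕ Fin d → Fin n, J K *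
        ∏ b, (if b ∈ s then anti R else R) (K (Sum.inl b)) (K (Sum.inr b)) := by
    intro s
    induction s using Finset.induction_on with
    | empty => simp
    | insert a s ha ih =>
      rw [ih, anti_step J hJ (fun b => if b ∈ s then anti R else R) a]
      refine Finset.sum_congr rfl fun K _ => ?_
      congr 1
      refine Finset.prod_congr rfl fun b _ => ?_
      by_cases hb : b = a
      · subst hb
        simp [Function.update_self, ha]
      · rw [Function.update_of_ne hb]
        simp [hb]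
  have := key Finset.univ
  simpa using this

end

/-! ### Expansion of the minors -/

section
variable {d g : ℕ}

theorem det_expand (μ : Fin d → Fin g → ℂ) (X : Fin g → Fin d → ℂ) :
    (Matrix.of fun a b => ∑ j, μ a j * X j b).det =
      ∑ I : Fin d → Fin g, (∏ a, μ a (I a)) * (Matrix.of fun a b => X (I a) b).det := by
  have h1 : (Matrix.of fun a b => ∑ j, μ a j * X j b).det =
      (detRowAlternating (R := ℂ) (n := Fin d)).toMultilinearMap
        (fun a => ∑ j, μ a j • X j) := by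
    show det _ = det _
    congr 1
    ext a b
    simp
  rw [h1, MultilinearMap.map_sum]
  refine Finset.sum_congr rfl fun I _ => ?_
  rw [MultilinearMap.map_smul_univ]
  rfl

theorem norm_det_sq_le (μ : Fin d → Fin g → ℂ) (hμ : ∀ a j, ‖μ a j‖ ≤ 1)
    (X : Fin g → Fin d → ℂ) :
    ‖(Matrix.of fun a b => ∑ j, μ a j * X j b).det‖ ^ 2 ≤
      (g : ℝ) ^ d * ∑ I : Fin d → Fin g, ‖(Matrix.of fun a b => X (I a) b).det‖ ^ 2 := by
  rw [det_expand]
  have h1 : ‖∑ I : Fin d → Fin g, (∏ a, μ a (I a)) * (Matrix.of fun a b => X (I a) b).det‖ ≤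
      ∑ I : Fin d → Fin g, ‖(Matrix.of fun a b => X (I a) b).det‖ := by
    refine (norm_sum_le _ _).trans (Finset.sum_le_sum fun I _ => ?_)
    rw [norm_mul, norm_prod]
    refine mul_le_of_le_one_left (norm_nonneg _) ?_
    exact Finset.prod_le_one (fun a _ => norm_nonneg _) fun a _ => hμ a _
  calc _ ≤ (∑ I : Fin d → Fin g, ‖(Matrix.of fun a b => X (I a) b).det‖) ^ 2 :=
        pow_le_pow_left₀ (norm_nonneg _) h1 2
    _ ≤ _ := by
        have := sq_sum_le_card_mul_sum_sq (s := (Finset.univ : Finset (Fin d → Fin g)))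
          (f := fun I => ‖(Matrix.of fun a b => X (I a) b).det‖)
        simpa using this

end

end Vale.Agent.P281.H485.K
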