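import Vale.Agent.P281.H64.TK.Spec
import Vale.Agent.P281.H864.K.Compat
import Vale.Agent.P281.MF.Hol
import Vale.Agent.P281.H383.F2
import Vale.Agent.P281.H485.K.Alg

/-!
# P281, project T-K, block K-F2 (helper485): the volume bound
-/

open Set Filter Metric MeasureTheory Matrix
open scoped Topology ContDiff ComplexConjugate ComplexOrder ENNReal NNReal

set_option linter.unusedSectionVars false

noncomputable section

namespace Vale.Agent.P281.H485.K

open Vale.Agent.P281.H64.TK Vale.Agent.P272.K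

section
variable {d : ℕ} {E Γ : Type} [TopologicalSpace E] [Group Γ] [MulAction Γ E] {S : Sheets d E Γ}

theorem add_smul_add {h₁ h₂ : E → ℂ} {c₁ c₂ : Γ → ℂ} (s : ℂ) (a1 : Add S h₁ c₁)
    (a2 : Add S h₂ c₂) :
    Add S (fun e => s * h₁ e + h₂ e) (fun γ => s * c₁ γ + c₂ γ) where
  hol i := ((a1.hol i).const_mul s).add (a2.hol i)
  add γ e := by
    show s * h₁ (γ • e) + h₂ (γ • e) = _
    rw [a1.add, a2.add]; ring

theorem add_zero' : Add S (fun _ => 0) (fun _ => 0) where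
  hol i := differentiableOn_const _
  add γ e := by simp

theorem add_sum' {g : ℕ} {F : E → Fin g → ℂ} {c : Γ → Fin g → ℂ}
    (hF : ∀ j, Add S (fun e => F e j) (fun γ => c γ j)) (s : Fin g → ℂ) (t : Finset (Fin g)) :
    Add S (fun e => ∑ j ∈ t, s j * F e j) (fun γ => ∑ j ∈ t, s j * c γ j) := by
  classical
  induction t using Finset.induction_on with
  | empty => simpa using (add_zero' (S := S))
  | insert a t ha ih =>
    simp only [Finset.sum_insert ha]
    exact add_smul_add (s a) (hF a) ih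

theorem add_sum {g : ℕ} {F : E → Fin g → ℂ} {c : Γ → Fin g → ℂ}
    (hF : ∀ j, Add S (fun e => F e j) (fun γ => c γ j)) (s : Fin g → ℂ) :
    Add S (fun e => ∑ j, s j * F e j) (fun γ => ∑ j, s j * c γ j) :=
  add_sum' hF s Finset.univ

theorem Add_diff {h : E → ℂ} {c : Γ → ℂ} (a : Add S h c) (i : Fin S.N) {z : Cm d}
    (hz : z ∈ ball (0 : Cm d) 3) : DifferentiableAt ℂ (fun z => h (S.σ i z)) z :=
  (a.hol i).differentiableAt (isOpen_ball.mem_nhds hz)

theorem Add_smoothC {h : E → ℂ} {c : Γ → ℂ} (a : Add S h c) (i : Fin S.N) :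
    ContDiffOn ℂ ∞ (fun z => h (S.σ i z)) (ball 0 3) :=
  (MF.analyticOnNhd_of_differentiableOn isOpen_ball (a.hol i)).contDiffOn isOpen_ball.uniqueDiffOn

theorem Add_smooth {h : E → ℂ} {c : Γ → ℂ} (a : Add S h c) (i : Fin S.N) :
    ContDiffOn ℝ ∞ (fun z => h (S.σ i z)) (ball 0 3) :=
  (Add_smoothC a i).restrict_scalars ℝ

theorem sadd_re {h : E → ℂ} {c : Γ → ℂ} (a : Add S h c) :
    SAdd S (fun e => (h e).re) (fun γ => (c γ).re) where
  smooth i := Complex.reCLM.contDiff.comp_contDiffOn (Add_smooth a i)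
  add γ e := by rw [a.add, Complex.add_re]

theorem sadd_im {h : E → ℂ} {c : Γ → ℂ} (a : Add S h c) :
    SAdd S (fun e => (h e).im) (fun γ => (c γ).im) where
  smooth i := Complex.imCLM.contDiff.comp_contDiffOn (Add_smooth a i)
  add γ e := by rw [a.add, Complex.add_im]

/-- The matrix `(∂H_a/∂z_b)` in the sheet `i`. -/
def Y (S : Sheets d E Γ) (H : Fin d → E → ℂ) (i : Fin S.N) (z : Cm d) :
    Matrix (Fin d) (Fin d) ℂ :=
  Matrix.of fun a b => dd b (fun z => H a (S.σ i z)) z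

/-- The real and imaginary parts. -/
def uu (H : Fin d → E → ℂ) : Fin d ⊕ Fin d → E → ℝ :=
  Sum.elim (fun a e => (H a e).re) (fun a e => (H a e).im)

/-- The periods of the real and imaginary parts. -/
def uc (C : Fin d → Γ → ℂ) : Fin d ⊕ Fin d → Γ → ℝ :=
  Sum.elim (fun a e => (C a e).re) (fun a e => (C a e).im)

theorem sadd_uu {H : Fin d → E → ℂ} {C : Fin d → Γ → ℂ} (hH : ∀ a, Add S (H a) (C a)) :
    ∀ k, SAdd S (uu H k) (uc C k) := by
  rintro (a | a)
  · exact sadd_re (hH a)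
  · exact sadd_im (hH a)

theorem fderiv_re' {f : Cm d → ℂ} {z : Cm d} (hf : DifferentiableAt ℂ f z) (ξ : Cm d) :
    fderiv ℝ (fun z => (f z).re) z ξ = (fderiv ℂ f z ξ).re := by
  have h1 : HasFDerivAt f ((fderiv ℂ f z).restrictScalars ℝ) z :=
    hf.hasFDerivAt.restrictScalars ℝ
  have h2 := (Complex.reCLM.hasFDerivAt (x := f z)).comp z h1
  rw [show (fun z => (f z).re) = Complex.reCLM ∘ f from rfl, h2.fderiv]
  rfl

theorem fderiv_im' {f : Cm d → ℂ} {z : Cm d} (hf : DifferentiableAt ℂ f z) (ξ : Cm d) :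
    fderiv ℝ (fun z => (f z).im) z ξ = (fderiv ℂ f z ξ).im := by
  have h1 : HasFDerivAt f ((fderiv ℂ f z).restrictScalars ℝ) z :=
    hf.hasFDerivAt.restrictScalars ℝ
  have h2 := (Complex.imCLM.hasFDerivAt (x := f z)).comp z h1
  rw [show (fun z => (f z).im) = Complex.imCLM ∘ f from rfl, h2.fderiv]
  rfl

theorem rv_inr (k : Fin d) : (rv (Sum.inr k) : Cm d) = Complex.I • Pi.single k 1 := by
  ext l
  by_cases h : l = k
  · subst h; simp [rv]
  · simp [rv, h]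

theorem jacR_eq {H : Fin d → E → ℂ} {C : Fin d → Γ → ℂ} (hH : ∀ a, Add S (H a) (C a))
    (i : Fin S.N) {z : Cm d} (hz : z ∈ ball (0 : Cm d) 3) :
    S.jacR (uu H) i z = ‖(Y S H i z).det‖ ^ 2 := by
  rw [← det_real2]
  unfold Sheets.jacR
  congr 1
  have hd := fun a => Add_diff (hH a) i hz
  ext (a | a) (b | b)
  · show fderiv ℝ (fun z => (H a (S.σ i z)).re) z (rv (Sum.inl b)) = _
    rw [fderiv_re' (hd a)]
    rfl
  · show fderiv ℝ (fun z => (H a (S.σ i z)).re) z (rv (Sum.inr b)) = _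
    rw [fderiv_re' (hd a), rv_inr, map_smul]
    simp [real2, Y, dd]
  · show fderiv ℝ (fun z => (H a (S.σ i z)).im) z (rv (Sum.inl b)) = _
    rw [fderiv_im' (hd a)]
    rfl
  · show fderiv ℝ (fun z => (H a (S.σ i z)).im) z (rv (Sum.inr b)) = _
    rw [fderiv_im' (hd a), rv_inr, map_smul]
    simp [real2, Y, dd]

theorem cont_Y {H : Fin d → E → ℂ} {C : Fin d → Γ → ℂ} (hH : ∀ a, Add S (H a) (C a))
    (i : Fin S.N) : ContinuousOn (fun z => ‖(Y S H i z).det‖ ^ 2) (ball 0 3) := by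
  have h1 : ContinuousOn (fun z => Y S H i z) (ball 0 3) := by
    refine continuousOn_pi.2 fun a => continuousOn_pi.2 fun b => ?_
    have h2 := (Add_smoothC (hH a) i).continuousOn_fderiv_of_isOpen isOpen_ball (by simp)
    exact h2.clm_apply continuousOn_const
  have h3 : Continuous fun A : Matrix (Fin d) (Fin d) ℂ => A.det := continuous_id.matrix_det
  exact ((h3.comp_continuousOn h1).norm).pow 2

/-- The matrix `(∂(H_a ∘ q)/∂v_b)`. -/
def X (H : Fin d → E → ℂ) (q : Cm d → E) (v : Cm d) : Matrix (Fin d) (Fin d) ℂ :=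
  Matrix.of fun a b => fderiv ℂ (fun u => H a (q u)) v (Pi.single b 1)

theorem clm_eq_sum (L : Cm d →L[ℂ] ℂ) (ξ : Cm d) : L ξ = ∑ l, L (Pi.single l 1) * ξ l := by
  conv_lhs => rw [pi_eq_sum_univ' ξ]
  rw [map_sum]
  refine Finset.sum_congr rfl fun l _ => ?_
  rw [map_smul, smul_eq_mul, mul_comm]

theorem fderiv_poly {h : E → ℂ} {c : Γ → ℂ} (a : Add S h c) {q : Cm d → E} {v z : Cm d}
    {i : Fin S.N} (hz : z ∈ ball (0 : Cm d) 3) {γ : Γ} {θ : Cm d → Cm d}
    (h1 : AnalyticAt ℂ θ v) (h2 : θ v = z) (h3 : ∀ᶠ u in 𝓝 v, q u = γ • S.σ i (θ u)) :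
    HasFDerivAt (fun u => h (q u))
      ((fderiv ℂ (fun z => h (S.σ i z)) z).comp (fderiv ℂ θ v)) v := by
  have h4 : (fun v => h (q v)) =ᶠ[𝓝 v] fun u => h (S.σ i (θ u)) + c γ := by
    filter_upwards [h3] with u hu
    rw [hu, a.add]
  have h5 := (Add_diff a i hz).hasFDerivAt
  rw [← h2] at h5
  have h6 := (HasFDerivAt.comp v h5 h1.differentiableAt.hasFDerivAt).add_const (c γ)
  rw [← h2]
  exact h6.congr_of_eventuallyEq h4

theorem diff_poly [ContinuousConstSMul Γ E] {h : E → ℂ} {c : Γ → ℂ} (a : Add S h c)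
    {q : Cm d → E} {v₀ : Cm d} {r : ℝ} (hq : PolyIn S q v₀ r) {v : Cm d} (hv : v ∈ ball v₀ r) :
    DifferentiableAt ℂ (fun v => h (q v)) v := by
  obtain ⟨γ, i, z, hz, he⟩ := S.cover (q v)
  have hz3 : z ∈ ball (0 : Cm d) 3 := by rw [mem_ball_zero_iff]; linarith
  obtain ⟨θ, h1, h2, h3⟩ := hq.hol v hv i z hz3 γ he.symm
  exact (fderiv_poly a hz3 h1 h2 h3).differentiableAt

theorem X_eq {H : Fin d → E → ℂ} {C : Fin d → Γ → ℂ} (hH : ∀ a, Add S (H a) (C a))
    {q : Cm d → E} {v z : Cm d} {i : Fin S.N} (hz : z ∈ ball (0 : Cm d) 3) {γ : Γ}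
    {θ : Cm d → Cm d} (h1 : AnalyticAt ℂ θ v) (h2 : θ v = z)
    (h3 : ∀ᶠ u in 𝓝 v, q u = γ • S.σ i (θ u)) : X H q v = Y S H i z * jac θ v := by
  ext a b
  rw [Matrix.mul_apply]
  show fderiv ℂ (fun u => H a (q u)) v (Pi.single b 1) = _
  rw [(fderiv_poly (hH a) hz h1 h2 h3).fderiv, ContinuousLinearMap.comp_apply, clm_eq_sum]
  rfl

theorem lint_X [ContinuousConstSMul Γ E] {H : Fin d → E → ℂ} {C : Fin d → Γ → ℂ}
    (hH : ∀ a, Add S (H a) (C a)) {q : Cm d → E} {v₀ : Cm d} {r : ℝ} (hq : PolyIn S q v₀ r) :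
    ∫⁻ v in ball v₀ r, ‖(X H q v).det‖ₑ ^ 2 ≤
      ENNReal.ofReal (∑ i, ∫ z in S.P i, S.jacR (uu H) i z) := by
  have h0 : ∀ i, ∫⁻ z in S.P i, ‖(Y S H i z).det‖ₑ ^ 2 =
      ENNReal.ofReal (∫ z in S.P i, S.jacR (uu H) i z) := by
    intro i
    have h1 : ∫ z in S.P i, S.jacR (uu H) i z = ∫ z in S.P i, ‖(Y S H i z).det‖ ^ 2 :=
      setIntegral_congr_fun (H864.K.meas_P S i) fun z hz =>
        jacR_eq hH i (H864.K.P_subset3 S i hz)
    rw [h1, ofReal_integral_eq_lintegral_ofReal (H864.K.integrableOn_P S i (cont_Y hH i))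
      (ae_of_all _ fun z => by positivity)]
    refine lintegral_congr fun z => ?_
    rw [ENNReal.ofReal_pow (norm_nonneg _), ofReal_norm_eq_enorm]
  have h2 : ∀ i, 0 ≤ ∫ z in S.P i, S.jacR (uu H) i z := fun i =>
    setIntegral_nonneg (H864.K.meas_P S i) fun z hz => by
      rw [jacR_eq hH i (H864.K.P_subset3 S i hz)]; positivity
  rw [ENNReal.ofReal_sum_of_nonneg fun i _ => h2 i]
  simp_rw [← h0]
  refine H864.K.lint_poly hq _ _ ?_
  intro i v hv z hz γ θ a1 a2 a3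
  rw [X_eq hH hz a1 a2 a3, Matrix.det_mul, enorm_mul, mul_pow, mul_comm,
    ENNReal.ofReal_pow (norm_nonneg _), ofReal_norm_eq_enorm]

end

end Vale.Agent.P281.H485.K
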