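import Vale.Agent.P281.H64.TK.SpecT
import Vale.Agent.P281.H603.K.Base
import Vale.Agent.P281.H485.K.Flow

/-!
# P281, project T-K, block TUNI (helper485): the Albanese map of a torus is a homeomorphism
`E → ℂ^d`
-/

open Set Filter Metric Topology

set_option linter.unusedSectionVars false

noncomputable section

namespace Vale.Agent.P281.H485.K

open Vale.Agent.P281.H64.TK Vale.Agent.P272.K
open Vale.Agent.P281.H603.K

variable {d : ℕ} {E Γ : Type} [TopologicalSpace E] [Group Γ] [MulAction Γ E]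
  [ContinuousConstSMul Γ E] {S : Sheets d E Γ} {h : E → Cm d} {c : Γ → Cm d}

/-- `h (γ • e) = h e + c γ` -/
theorem tor_add (H : ∀ a, Add S (fun e => h e a) fun γ => c γ a) (γ : Γ) (e : E) :
    h (γ • e) = h e + c γ := by
  funext a
  exact (H a).add γ e

theorem tor_strict (H : ∀ a, Add S (fun e => h e a) fun γ => c γ a)
    (hd : ∀ i, ∀ z ∈ ball (0 : Cm d) 3, S.minor h i z ≠ 0) (i : Fin S.N) {z : Cm d}
    (hz : z ∈ ball (0 : Cm d) 3) : ∃ L : Cm d ≃L[ℂ] Cm d,
      HasStrictFDerivAt (fun u => h (S.σ i u)) (L : Cm d →L[ℂ] Cm d) z := by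
  have h1 : ∀ a, AnalyticAt ℂ (fun u => h (S.σ i u) a) z := fun a => add_analyticAt (H a) i hz
  have h2 : AnalyticAt ℂ (fun u => h (S.σ i u)) z := analyticAt_pi_iff.2 h1
  have h3 := h2.hasStrictFDerivAt
  have h4 : S.minor h i z = LinearMap.det
      (fderiv ℂ (fun u => h (S.σ i u)) z : Cm d →ₗ[ℂ] Cm d) := by
    rw [← LinearMap.det_toMatrix']
    unfold Sheets.minor
    congr 1
    ext a b
    rw [LinearMap.toMatrix'_apply]
    show fderiv ℂ (fun z => h (S.σ i z) a) z (Pi.single b 1) = _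
    have h5 : HasFDerivAt (fun z => h (S.σ i z) a)
        ((ContinuousLinearMap.proj a : Cm d →L[ℂ] ℂ).comp
          (fderiv ℂ (fun u => h (S.σ i u)) z)) z :=
      (ContinuousLinearMap.proj (R := ℂ) (φ := fun _ : Fin d => ℂ) a).hasFDerivAt.comp z
        h2.differentiableAt.hasFDerivAt
    rw [h5.fderiv]
    rfl
  have h6 : (fderiv ℂ (fun u => h (S.σ i u)) z).det ≠ 0 := by
    have h7 : (fderiv ℂ (fun u => h (S.σ i u)) z).det =
        LinearMap.det (fderiv ℂ (fun u => h (S.σ i u)) z : Cm d →ₗ[ℂ] Cm d) := rfl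
    rw [h7, ← h4]
    exact hd i z hz
  refine ⟨(fderiv ℂ (fun u => h (S.σ i u)) z).toContinuousLinearEquivOfDetNeZero h6, ?_⟩
  rw [ContinuousLinearMap.coe_toContinuousLinearEquivOfDetNeZero]
  exact h3

theorem tor_localHomeo (H : ∀ a, Add S (fun e => h e a) fun γ => c γ a)
    (hd : ∀ i, ∀ z ∈ ball (0 : Cm d) 3, S.minor h i z ≠ 0) :
    IsLocalHomeomorph h ∧ IsOpenMap h := by
  have hmap : ∀ e, map h (𝓝 e) = 𝓝 (h e) := by
    intro e
    obtain ⟨γ, i, z, hz, rfl⟩ := S.cover e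
    rw [← Sh.map_nhds_smul S γ i (Sh.mem3 hz), Filter.map_map, tor_add H]
    obtain ⟨L, hL⟩ := tor_strict H hd i (Sh.mem3 hz)
    have h1 := hL.map_nhds_eq_of_equiv
    have h2 : (h ∘ fun u => γ • S.σ i u) = (fun w => w + c γ) ∘ fun u => h (S.σ i u) := by
      funext u
      simp only [Function.comp]
      rw [tor_add H]
    rw [h2, ← Filter.map_map, h1]
    exact (Homeomorph.addRight (c γ)).map_nhds_eq _
  have hc : Continuous h := continuous_iff_continuousAt.mpr fun e => (hmap e).le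
  have ho : IsOpenMap h := isOpenMap_iff_nhds_le.mpr fun e => (hmap e).ge
  refine ⟨?_, ho⟩
  rw [isLocalHomeomorph_iff_isOpenEmbedding_restrict]
  intro e
  obtain ⟨γ, i, z, hz, rfl⟩ := S.cover e
  obtain ⟨L, hL⟩ := tor_strict H hd i (Sh.mem3 hz)
  have h1 := hL.eventually_left_inverse
  have h2 : (fun u => γ • S.σ i u) '' {u | hL.localInverse _ _ _ (h (S.σ i u)) = u} ∈
      𝓝 (γ • S.σ i z) := by
    rw [← Sh.map_nhds_smul S γ i (Sh.mem3 hz)]
    exact image_mem_map h1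
  obtain ⟨U, hU, hUo, heU⟩ := mem_nhds_iff.mp h2
  refine ⟨U, hUo.mem_nhds heU, ?_⟩
  refine IsOpenEmbedding.of_continuous_injective_isOpenMap (hc.comp continuous_subtype_val) ?_
    (ho.comp hUo.isOpenMap_subtype_val)
  rw [← injOn_iff_injective]
  intro a ha b hb hab
  obtain ⟨u, hu, rfl⟩ := hU ha
  obtain ⟨v, hv, rfl⟩ := hU hb
  simp only at hab
  rw [tor_add H, tor_add H, add_left_inj] at hab
  rw [← hu, ← hv, hab]

/-- A compact set which meets all the orbits. -/
def KK (S : Sheets d E Γ) : Set E := ⋃ i, S.σ i '' closedBall 0 1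

theorem isCompact_KK (S : Sheets d E Γ) : IsCompact (KK S) :=
  isCompact_iUnion fun i => (isCompact_closedBall _ _).image_of_continuousOn
    ((Sh.contOn S i).mono (closedBall_subset_ball (by norm_num)))

theorem exists_mem_KK (S : Sheets d E Γ) (e : E) : ∃ γ : Γ, γ • e ∈ KK S := by
  obtain ⟨γ, i, z, hz, rfl⟩ := S.cover e
  refine ⟨γ⁻¹, mem_iUnion.2 ⟨i, z, ?_, ?_⟩⟩
  · rw [mem_closedBall_zero_iff]; exact hz.le
  · rw [inv_smul_smul]

/-- **TUNI** -/
theorem tuni : TUniStmt := by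
  intro d E Γ _ _ _ _ _ _ S h c _ H hd
  obtain ⟨hloc, hopen⟩ := tor_localHomeo H hd
  obtain ⟨ρ, hρ, hsec⟩ := exists_sec_compact hloc (isCompact_KK S)
  have hsec' : ∀ e, Sec h ρ e := by
    intro e
    obtain ⟨γ, hγ⟩ := exists_mem_KK S e
    obtain ⟨s, h1, h2, h3⟩ := hsec _ hγ
    rw [tor_add H] at h1 h2 h3
    have hmaps : MapsTo (fun w : Cm d => w + c γ) (ball (h e) ρ) (ball (h e + c γ) ρ) := by
      intro w hw
      simpa [mem_ball] using hw
    refine ⟨fun w => γ⁻¹ • s (w + c γ), ?_, ?_, ?_⟩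
    · refine ContinuousOn.const_smul ?_ γ⁻¹
      exact h1.comp (by fun_prop) hmaps
    · intro w hw
      have h4 := h2 _ (hmaps hw)
      have h5 := tor_add H γ (γ⁻¹ • s (w + c γ))
      rw [smul_inv_smul, h4] at h5
      exact (add_right_cancel h5).symm
    · simp only
      rw [h3, inv_smul_smul]
  have hbij := bij_of_sec hloc hρ hsec'
  refine ⟨hbij, hopen, hloc.continuous, ?_⟩
  intro γ γ' hγ
  obtain ⟨e⟩ : Nonempty E := inferInstance
  have h1 : h (γ • e) = h (γ' • e) := by rw [tor_add H, tor_add H, hγ]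
  exact Sh.eq_of_smul_eq S (hbij.1 h1)

end Vale.Agent.P281.H485.K
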