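import Vale.Agent.P281.H485.K.Vol

/-!
# P281, project T-K, block K-F2 (helper485): the statement
-/

open Set Filter Metric MeasureTheory Matrix
open scoped Topology ContDiff ComplexConjugate ComplexOrder ENNReal NNReal

set_option linter.unusedSectionVars false

noncomputable section

namespace Vale.Agent.P281.H485.K

open Vale.Agent.P281.H64.TK Vale.Agent.P272.K
open Vale.Agent.P281.H383 (rho ww Dat mat mat_apply inner_mat eq_of_im' exists_G exists_pi)

/-! ### Part 2 -/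

section
variable {d : ℕ} {E Γ : Type} [TopologicalSpace E] [Group Γ] [MulAction Γ E] {S : Sheets d E Γ}

/-- The bound. -/
def bnd {d n : ℕ} (B : Matrix (Fin n) (Fin n) ℝ) (J : (Fin d ⊕ Fin d → Fin n) → ℝ) : ℝ :=
  ∑ K : Fin d ⊕ Fin d → Fin n, J K * ∏ a, (B⁻¹ (K (Sum.inr a)) (K (Sum.inl a)) / 2)

theorem sum_jac {n g : ℕ} {B : Matrix (Fin n) (Fin n) ℝ} {J : (Fin d ⊕ Fin d → Fin n) → ℝ}
    (hJ : ∀ (τ : Equiv.Perm (Fin d ⊕ Fin d)) K, J (K ∘ τ) = (Equiv.Perm.sign τ : ℤ) * J K)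
    {M : H64.Mark Γ n} (hS : HasJac S M J) {H : Fin g → E → ℂ} {C : Fin g → Γ → ℂ}
    (hH : ∀ j, Add S (H j) (C j))
    (hC : ∀ x y, (∑ j, conj (C j (M.g x)) * C j (M.g y)).im = B⁻¹ y x) :
    ∑ I : Fin d → Fin g, ∑ i, ∫ z in S.P i, S.jacR (uu fun a => H (I a)) i z = bnd B J := by
  have h1 : ∀ I : Fin d → Fin g, ∑ i, ∫ z in S.P i, S.jacR (uu fun a => H (I a)) i z =
      ∑ K : Fin d ⊕ Fin d → Fin n, J K *
        ∏ a, ((C (I a) (M.g (K (Sum.inl a)))).re * (C (I a) (M.g (K (Sum.inr a)))).im) := by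
    intro I
    rw [hS _ _ (sadd_uu fun a => hH (I a))]
    refine Finset.sum_congr rfl fun K _ => ?_
    rw [Fintype.prod_sum_type, ← Finset.prod_mul_distrib]
    rfl
  simp_rw [h1]
  rw [Finset.sum_comm]
  have h2 : ∀ K : Fin d ⊕ Fin d → Fin n, ∑ I : Fin d → Fin g, J K *
        ∏ a, ((C (I a) (M.g (K (Sum.inl a)))).re * (C (I a) (M.g (K (Sum.inr a)))).im) =
      J K * ∏ a, ∑ j, (C j (M.g (K (Sum.inl a)))).re * (C j (M.g (K (Sum.inr a)))).im := by
    intro K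
    rw [← Finset.mul_sum, Finset.prod_univ_sum, Fintype.piFinset_univ]
  simp_rw [h2]
  rw [anti_all J hJ fun x y => ∑ j, (C j (M.g x)).re * (C j (M.g y)).im]
  refine Finset.sum_congr rfl fun K _ => ?_
  congr 1
  refine Finset.prod_congr rfl fun a _ => ?_
  rw [← hC]
  simp only [anti]
  rw [← Finset.sum_sub_distrib, Complex.im_sum]
  congr 1
  refine Finset.sum_congr rfl fun j _ => ?_
  simp only [Complex.mul_im, Complex.conj_re, Complex.conj_im]
  ring

/-- The coefficients of `m`. -/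
def cf {g : ℕ} (m : Fin d → (EuclideanSpace ℂ (Fin g) →L[ℂ] ℂ)) (a : Fin d) (j : Fin g) : ℂ :=
  m a (WithLp.toLp 2 (Pi.single j 1))

theorem cf_le {g : ℕ} {m : Fin d → (EuclideanSpace ℂ (Fin g) →L[ℂ] ℂ)} (hm : ∀ a, ‖m a‖ ≤ 1)
    (a : Fin d) (j : Fin g) : ‖cf m a j‖ ≤ 1 := by
  refine ((m a).le_opNorm _).trans ?_
  have h1 : ‖(WithLp.toLp 2 (Pi.single j 1) : EuclideanSpace ℂ (Fin g))‖ = 1 := by
    simp
  rw [h1, mul_one]
  exact hm a

theorem m_toLp {g : ℕ} (m : Fin d → (EuclideanSpace ℂ (Fin g) →L[ℂ] ℂ)) (a : Fin d)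
    (w : Fin g → ℂ) : m a (WithLp.toLp 2 w) = ∑ j, cf m a j * w j := by
  have h1 : (WithLp.toLp 2 w : EuclideanSpace ℂ (Fin g)) =
      ∑ j, w j • (WithLp.toLp 2 (Pi.single j 1) : EuclideanSpace ℂ (Fin g)) := by
    ext b
    simp [Pi.single_apply]
  rw [h1, map_sum]
  refine Finset.sum_congr rfl fun j _ => ?_
  rw [map_smul, smul_eq_mul, mul_comm]
  rfl

theorem minor_eq {g : ℕ} (m : Fin d → (EuclideanSpace ℂ (Fin g) →L[ℂ] ℂ))
    {φ : Fin g → Cm d → ℂ} {v : Cm d} (hφ : ∀ j, DifferentiableAt ℂ (φ j) v) :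
    H713.minor m (fun u => WithLp.toLp 2 fun j => φ j u) v =
      (Matrix.of fun a b => ∑ j, cf m a j * fderiv ℂ (φ j) v (Pi.single b 1)).det := by
  unfold H713.minor
  congr 1
  ext a b
  simp only [Matrix.of_apply]
  have h1 : HasFDerivAt (fun u => fun j => φ j u)
      (ContinuousLinearMap.pi fun j => fderiv ℂ (φ j) v) v :=
    hasFDerivAt_pi.2 fun j => (hφ j).hasFDerivAt
  have h2 : HasFDerivAt (fun u => (WithLp.toLp 2 fun j => φ j u : EuclideanSpace ℂ (Fin g)))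
      (((PiLp.continuousLinearEquiv 2 ℂ fun _ : Fin g => ℂ).symm :
        (Fin g → ℂ) →L[ℂ] EuclideanSpace ℂ (Fin g)).comp
        (ContinuousLinearMap.pi fun j => fderiv ℂ (φ j) v)) v :=
    ((PiLp.continuousLinearEquiv 2 ℂ fun _ : Fin g => ℂ).symm.hasFDerivAt).comp v h1
  rw [h2.fderiv]
  show m a (WithLp.toLp 2 fun j => fderiv ℂ (φ j) v (Pi.single b 1)) = _
  rw [m_toLp]

theorem meas_X (H : Fin d → E → ℂ) (q : Cm d → E) :
    Measurable fun v => ‖(X H q v).det‖ₑ ^ 2 := by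
  refine Measurable.pow_const (Measurable.enorm ?_) 2
  simp only [Matrix.det_apply]
  refine Finset.measurable_sum _ fun σ _ => ?_
  refine Measurable.const_smul ?_ _
  refine Finset.measurable_prod _ fun b _ => ?_
  exact measurable_fderiv_apply_const ℂ _ _

end

theorem part2 (d n g : ℕ) (B : Matrix (Fin n) (Fin n) ℝ) (J : (Fin d ⊕ Fin d → Fin n) → ℝ)
    (hJ : ∀ (τ : Equiv.Perm (Fin d ⊕ Fin d)) K, J (K ∘ τ) = (Equiv.Perm.sign τ : ℤ) * J K) :
    ∃ A : NNReal, ∀ (E Γ : Type) [TopologicalSpace E] [T2Space E] [SimplyConnectedSpace E]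
      [Group Γ] [MulAction Γ E] [ContinuousConstSMul Γ E] (S : Sheets d E Γ) (M : H64.Mark Γ n)
      (F : E → Fin g → ℂ) (c : Γ → Fin g → ℂ), HasJac S M J → IsBas S F c →
      ∀ π : (Fin n → ℝ) ≃L[ℝ] EuclideanSpace ℂ (Fin g), (∀ x, π x = perMap M c x) →
      ∀ G : EuclideanSpace ℂ (Fin g) ≃L[ℂ] EuclideanSpace ℂ (Fin g), (∀ x x',
        (inner ℂ (G (π x)) (G (π x'))).im = ∑ k, ∑ l, B⁻¹ k l * x' k * x l) →
        ∀ (q : Cm d → E) (v₀ : Cm d) (r : ℝ), PolyIn S q v₀ r →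
        ∀ m : Fin d → (EuclideanSpace ℂ (Fin g) →L[ℂ] ℂ), (∀ i, ‖m i‖ ≤ 1) →
          ∫⁻ v in ball v₀ r, ‖H713.minor m (fun u => G (WithLp.toLp 2 fun j => F (q u) j)) v‖ₑ ^ 2
            ≤ A := by
  refine ⟨(g : NNReal) ^ d * Real.toNNReal (bnd B J), ?_⟩
  intro E Γ _ _ _ _ _ _ S M F c hS hF π hπ G hG q v₀ r hq m hm
  let G' : EuclideanSpace ℂ (Fin g) →ₗ[ℂ] EuclideanSpace ℂ (Fin g) := G.toLinearEquiv
  let H : Fin g → E → ℂ := fun j e => ∑ l, mat G' j l * F e l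
  let C : Fin g → Γ → ℂ := fun j γ => ∑ l, mat G' j l * c γ l
  have hH : ∀ j, Add S (H j) (C j) := fun j => add_sum hF.add (mat G' j)
  have hGe : ∀ w : Fin g → ℂ, G (WithLp.toLp 2 w) = WithLp.toLp 2 (mat G' *ᵥ w) :=
    fun w => mat_apply G' w
  have hC : ∀ x y, (∑ j, conj (C j (M.g x)) * C j (M.g y)).im = B⁻¹ y x := by
    intro x y
    have h1 := hG (Pi.single x 1) (Pi.single y 1)
    have h2 : ∀ x, π (Pi.single x 1) = WithLp.toLp 2 (c (M.g x)) := by
      intro x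
      rw [hπ]
      unfold perMap
      congr 1
      ext j
      rw [Finset.sum_eq_single x (fun k _ hk => by rw [Pi.single_eq_of_ne hk]; simp)
        (fun h => absurd (Finset.mem_univ _) h), Pi.single_eq_same]
      simp
    rw [h2, h2, hGe, hGe, EuclideanSpace.inner_toLp_toLp] at h1
    have h3 : ∑ k, ∑ l, B⁻¹ k l * (Pi.single y (1 : ℝ) : Fin n → ℝ) k *
        (Pi.single x (1 : ℝ) : Fin n → ℝ) l = B⁻¹ y x := by
      simp [Pi.single_apply]
    rw [h3] at h1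
    rw [← h1]
    congr 1
    simp only [dotProduct, Pi.star_apply]
    exact Finset.sum_congr rfl fun j _ => mul_comm _ _
  have hd : ∀ j, ∀ v ∈ ball v₀ r, DifferentiableAt ℂ (fun u => H j (q u)) v := fun j v hv =>
    diff_poly (hH j) hq hv
  have h1 : ∀ v ∈ ball v₀ r,
      ‖H713.minor m (fun u => G (WithLp.toLp 2 fun j => F (q u) j)) v‖ₑ ^ 2 ≤
        (g : ℝ≥0∞) ^ d * ∑ I : Fin d → Fin g, ‖(X (fun a => H (I a)) q v).det‖ₑ ^ 2 := by
    intro v hv
    have h2 : (fun u => G (WithLp.toLp 2 fun j => F (q u) j)) =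
        fun u => WithLp.toLp 2 fun j => H j (q u) := by
      ext u j
      rw [hGe]
      rfl
    rw [h2, minor_eq m fun j => hd j v hv]
    have h3 := norm_det_sq_le (cf m) (cf_le hm)
      (fun j b => fderiv ℂ (fun u => H j (q u)) v (Pi.single b 1))
    have h4 := ENNReal.ofReal_le_ofReal h3
    rw [ENNReal.ofReal_pow (norm_nonneg _), ofReal_norm_eq_enorm,
      ENNReal.ofReal_mul (by positivity), ENNReal.ofReal_pow (by positivity),
      ENNReal.ofReal_natCast, ENNReal.ofReal_sum_of_nonneg fun I _ => by positivity] at h4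
    refine h4.trans (le_of_eq ?_)
    congr 1
    refine Finset.sum_congr rfl fun I _ => ?_
    rw [ENNReal.ofReal_pow (norm_nonneg _), ofReal_norm_eq_enorm]
    rfl
  refine (setLIntegral_mono' measurableSet_ball h1).trans ?_
  rw [lintegral_const_mul' _ _ (by simp), lintegral_finset_sum _ fun I _ => meas_X _ _]
  push_cast
  refine mul_le_mul_right ?_ _
  have h5 : ∀ I : Fin d → Fin g, ∫⁻ v in ball v₀ r, ‖(X (fun a => H (I a)) q v).det‖ₑ ^ 2 ≤
      ENNReal.ofReal (∑ i, ∫ z in S.P i, S.jacR (uu fun a => H (I a)) i z) := fun I =>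
    lint_X (fun a => hH (I a)) hq
  refine (Finset.sum_le_sum fun I _ => h5 I).trans ?_
  rw [← ENNReal.ofReal_sum_of_nonneg, sum_jac hJ hS hH hC]
  · rfl
  · intro I _
    refine Finset.sum_nonneg fun i _ => setIntegral_nonneg (H864.K.meas_P S i) fun z hz => ?_
    rw [jacR_eq (fun a => hH (I a)) i (H864.K.P_subset3 S i hz)]
    positivity

/-! ### Part 1 -/

section
variable {d : ℕ} {E Γ : Type} [TopologicalSpace E] [Group Γ] [MulAction Γ E] {S : Sheets d E Γ}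
  {w : Fin S.N → Cm d → Matrix (Fin d) (Fin d) ℂ}

theorem herm_zero (H : E1Concl S w) {h' : E → ℂ} {c' : Γ → ℂ} (a' : Add S h' c') :
    S.herm w (fun _ => 0) h' = 0 := by
  have h1 := H.lin (1 : ℂ) (add_zero' (S := S)) (add_zero' (S := S)) a'
  simp only [mul_zero, add_zero, one_mul] at h1
  have h2 : S.herm w (fun _ => 0) h' + 0 = S.herm w (fun _ => 0) h' + S.herm w (fun _ => 0) h' := by
    rw [add_zero]; exact h1
  exact (add_left_cancel h2).symm

theorem herm_sum' (H : E1Concl S w) {g : ℕ} {F : E → Fin g → ℂ} {c : Γ → Fin g → ℂ}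
    (hF : ∀ j, Add S (fun e => F e j) (fun γ => c γ j)) (s : Fin g → ℂ) {h' : E → ℂ}
    {c' : Γ → ℂ} (a' : Add S h' c') (t : Finset (Fin g)) :
    S.herm w (fun e => ∑ j ∈ t, s j * F e j) h' =
      ∑ j ∈ t, s j * S.herm w (fun e => F e j) h' := by
  classical
  induction t using Finset.induction_on with
  | empty => simpa using herm_zero H a'
  | insert a t ha ih =>
    simp only [Finset.sum_insert ha]
    rw [H.lin (s a) (hF a) (add_sum' hF s t) a', ih]

theorem herm_sum (H : E1Concl S w) {g : ℕ} {F : E → Fin g → ℂ} {c : Γ → Fin g → ℂ}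
    (hF : ∀ j, Add S (fun e => F e j) (fun γ => c γ j)) (s : Fin g → ℂ) {h' : E → ℂ}
    {c' : Γ → ℂ} (a' : Add S h' c') :
    S.herm w (fun e => ∑ j, s j * F e j) h' = ∑ j, s j * S.herm w (fun e => F e j) h' :=
  herm_sum' H hF s a' Finset.univ

/-- The Gram matrix. -/
def gram (S : Sheets d E Γ) (w : Fin S.N → Cm d → Matrix (Fin d) (Fin d) ℂ) {g : ℕ}
    (F : E → Fin g → ℂ) : Matrix (Fin g) (Fin g) ℂ :=
  Matrix.of fun j l => S.herm w (fun e => F e j) (fun e => F e l)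

theorem gram_herm (H : E1Concl S w) {g : ℕ} {F : E → Fin g → ℂ} {c : Γ → Fin g → ℂ}
    (hF : ∀ j, Add S (fun e => F e j) (fun γ => c γ j)) : (gram S w F).IsHermitian := by
  ext j l
  show star (S.herm w (fun e => F e l) (fun e => F e j)) =
    S.herm w (fun e => F e j) (fun e => F e l)
  rw [H.symm (hF l) (hF j)]
  rfl

theorem herm_sum_sum (H : E1Concl S w) {g : ℕ} {F : E → Fin g → ℂ} {c : Γ → Fin g → ℂ}
    (hF : ∀ j, Add S (fun e => F e j) (fun γ => c γ j)) (s s' : Fin g → ℂ) :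
    S.herm w (fun e => ∑ j, s j * F e j) (fun e => ∑ j, s' j * F e j) =
      s ⬝ᵥ (gram S w F) *ᵥ (star s') := by
  rw [herm_sum H hF s (add_sum hF s')]
  simp only [dotProduct, mulVec, gram, Matrix.of_apply, Pi.star_apply]
  refine Finset.sum_congr rfl fun j _ => ?_
  congr 1
  rw [H.symm (add_sum hF s') (hF j), herm_sum H hF s' (hF j), map_sum]
  refine Finset.sum_congr rfl fun l _ => ?_
  rw [map_mul, ← H.symm (hF l) (hF j), mul_comm]
  rfl

theorem dat_of (c2 : ∀ a : Γ → ℝ, (∀ x y, a (x * y) = a x + a y) → ∃ (h : E → ℂ) (c : Γ → ℂ),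
      Add S h c ∧ ∀ γ, (c γ).re = a γ)
    (H : E1Concl S w) {n g : ℕ} (M : H64.Mark Γ n) {B : Matrix (Fin n) (Fin n) ℝ}
    {F : E → Fin g → ℂ} {c : Γ → Fin g → ℂ} (hB : HasForm S w M B)
    (hF : IsBas S F c) : Dat (fun k => c (M.g k)) (gram S w F) B := by
  refine ⟨gram_herm H hF.add, fun s hs => ?_, fun s => ?_, fun s s' => ?_, fun a => ?_⟩
  · rw [← herm_sum_sum H hF.add] at hs
    exact hF.indep s (H.pos (add_sum hF.add s) hs)
  · rw [← herm_sum_sum H hF.add]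
    exact H.nonneg (add_sum hF.add s)
  · rw [← herm_sum_sum H hF.add, hB _ _ _ _ (add_sum hF.add s) (add_sum hF.add s')]
    simp only [dotProduct, mulVec, rho, Finset.mul_sum]
    exact Finset.sum_congr rfl fun k _ => Finset.sum_congr rfl fun l _ => by ring
  · obtain ⟨h, b, hb, hb'⟩ := c2 (fun γ => ∑ k, a k * M.φ k γ) (fun x y => by
      simp only [M.hom, Int.cast_add, mul_add, Finset.sum_add_distrib])
    obtain ⟨s, hs⟩ := hF.span h b hb
    refine ⟨s, ?_⟩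
    ext k
    show (∑ j, s j * c (M.g k) j).re = a k
    rw [← hs, hb']
    simp [M.dual]

end

/-- **F2** (linear algebra, from C2 and E1; part 2 is unconditional). -/
theorem f2 (c2 : C2Stmt) (e1 : E1Stmt) : F2Stmt := by
  refine ⟨?_, fun d n g B J _ hJ => part2 d n g B J hJ⟩
  intro d E Γ _ _ _ _ _ _ S w n g M B F c hd hw hn hB hF
  have H := e1 d E Γ S w hd hw
  have D := dat_of (c2 d E Γ S w hd hw).1 H M hB hF
  obtain ⟨π, hπ⟩ := exists_pi M c D hn
  have hw : ∀ x, π x = WithLp.toLp 2 (ww (fun k => c (M.g k)) x) := fun x => hπ x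
  refine ⟨D.unitB, π, hπ, ?_⟩
  obtain ⟨G, hG⟩ := exists_G D.posDef.inv
  refine ⟨G, fun x x' => ?_⟩
  rw [hw, hw, hG, D.key]

end Vale.Agent.P281.H485.K
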